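import Vale.Agent.P325.Star.Blocks

/-!
# The lifted coefficients are almost uniformly distributed; posterior of the types

The density of the lifted coefficients is a product over the blocks; the second moment of the
density of one block is at most `1 + β ^ 2 |C| ^ 2`.
-/

namespace Vale.Agent.P325.H914

open Finset Vale.Agent.P325.Star

section one

variable {C : Type} [AddCommGroup C] [Fintype C] [DecidableEq C]

/-- The number of coefficients that are lifted to `y`. -/
def cnt (τ : Ty) (y : C × C) : ℝ := #{n : C × C | τ.lift n = y}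

/-- The density of the lifted coefficients of one block. -/
noncomputable def dens (β : ℝ) (y : C × C) : ℝ := ∑ τ : Ty, τ.wt β * cnt τ y

/-- The part of the density that comes from the types other than `full`. -/
noncomputable def part (β : ℝ) (y : C × C) : ℝ :=
  ∑ τ : Ty, if τ = .full then 0 else τ.wt β * cnt τ y

theorem univ_ty : (univ : Finset Ty) = {.full, .s1, .s2, .s3, .dr} := rfl

theorem cnt_nonneg (τ : Ty) (y : C × C) : 0 ≤ cnt τ y := Nat.cast_nonneg _

theorem cnt_le (τ : Ty) (y : C × C) : cnt τ y ≤ (Fintype.card C : ℝ) ^ 2 := by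
  unfold cnt
  have h : #{n : C × C | τ.lift n = y} ≤ Fintype.card (C × C) := Finset.card_le_univ _
  rw [Fintype.card_prod] at h
  calc (#{n : C × C | τ.lift n = y} : ℝ) ≤ ((Fintype.card C * Fintype.card C : ℕ) : ℝ) := by
        exact_mod_cast h
    _ = (Fintype.card C : ℝ) ^ 2 := by push_cast; ring

theorem cnt_full (y : C × C) : cnt .full y = 1 := by
  unfold cnt
  have : ({n : C × C | Ty.full.lift n = y} : Finset (C × C)) = {y} := by
    ext n
    rw [Finset.mem_filter, Finset.mem_singleton]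
    simp [Ty.lift]
  rw [this]
  simp

theorem sum_cnt (τ : Ty) : ∑ y : C × C, cnt τ y = (Fintype.card C : ℝ) ^ 2 := by
  unfold cnt
  have h := Finset.card_eq_sum_card_fiberwise (s := (univ : Finset (C × C)))
    (t := (univ : Finset (C × C))) (f := τ.lift) fun _ _ => mem_univ _
  rw [Finset.card_univ, Fintype.card_prod] at h
  have h2 : ((Fintype.card C * Fintype.card C : ℕ) : ℝ) =
      ∑ y : C × C, (#{n : C × C | τ.lift n = y} : ℝ) := by
    rw [h]
    push_cast
    rfl
  rw [← h2]
  push_cast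
  ring

theorem wt_nonneg {β : ℝ} (h0 : 0 ≤ β) (h1 : β ≤ 1) (τ : Ty) : 0 ≤ τ.wt β := by
  cases τ <;> simp only [Ty.wt] <;> linarith

theorem sum_wt (β : ℝ) : ∑ τ : Ty, τ.wt β = 1 := by
  rw [univ_ty]
  simp [Ty.wt]
  ring

theorem dens_eq (β : ℝ) (y : C × C) : dens β y = (1 - β) + part β y := by
  unfold dens part
  rw [univ_ty]
  simp [Ty.wt, cnt_full]

theorem part_nonneg {β : ℝ} (h0 : 0 ≤ β) (h1 : β ≤ 1) (y : C × C) : 0 ≤ part β y :=
  Finset.sum_nonneg fun τ _ => by
    split_ifs
    · exact le_rfl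
    · exact mul_nonneg (wt_nonneg h0 h1 τ) (cnt_nonneg τ y)

theorem part_le {β : ℝ} (h0 : 0 ≤ β) (h1 : β ≤ 1) (y : C × C) :
    part β y ≤ β * (Fintype.card C : ℝ) ^ 2 := by
  unfold part
  have h : ∀ τ : Ty, (if τ = .full then 0 else τ.wt β * cnt τ y) ≤
      if τ = .full then 0 else τ.wt β * (Fintype.card C : ℝ) ^ 2 := by
    intro τ
    split_ifs
    · exact le_rfl
    · exact mul_le_mul_of_nonneg_left (cnt_le τ y) (wt_nonneg h0 h1 τ)
  refine (Finset.sum_le_sum fun τ _ => h τ).trans (le_of_eq ?_)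
  rw [univ_ty]
  simp [Ty.wt]
  ring

theorem sum_part (β : ℝ) : ∑ y : C × C, part β y = β * (Fintype.card C : ℝ) ^ 2 := by
  unfold part
  rw [Finset.sum_comm]
  have h : ∀ τ : Ty, (∑ y : C × C, if τ = .full then 0 else τ.wt β * cnt τ y) =
      if τ = .full then 0 else τ.wt β * (Fintype.card C : ℝ) ^ 2 := by
    intro τ
    split_ifs
    · simp
    · rw [← Finset.mul_sum, sum_cnt]
  rw [Finset.sum_congr rfl fun τ _ => h τ, univ_ty]
  simp [Ty.wt]
  ring

theorem dens_nonneg {β : ℝ} (h0 : 0 ≤ β) (h1 : β ≤ 1) (y : C × C) : 0 ≤ dens β y := by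
  rw [dens_eq]
  have := part_nonneg h0 h1 y
  linarith

theorem sum_dens (β : ℝ) : ∑ y : C × C, dens β y = (Fintype.card C : ℝ) ^ 2 := by
  simp_rw [dens_eq]
  rw [Finset.sum_add_distrib, sum_part, Finset.sum_const, Finset.card_univ, Fintype.card_prod,
    nsmul_eq_mul]
  push_cast
  ring

theorem sum_dens_sq {β : ℝ} (h0 : 0 ≤ β) (h1 : β ≤ 1) :
    ∑ y : C × C, dens β y ^ 2 ≤
      (Fintype.card C : ℝ) ^ 2 * (1 + β ^ 2 * (Fintype.card C : ℝ) ^ 2) := by
  set c : ℝ := (Fintype.card C : ℝ) with hc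
  have h2 : ∀ y : C × C, dens β y ^ 2 ≤
      (1 - β) ^ 2 + (2 * (1 - β) + β * c ^ 2) * part β y := by
    intro y
    rw [dens_eq]
    have h3 := part_nonneg h0 h1 y
    have h4 := part_le h0 h1 y
    nlinarith
  refine (Finset.sum_le_sum fun y _ => h2 y).trans ?_
  rw [Finset.sum_add_distrib, ← Finset.mul_sum, sum_part, Finset.sum_const, Finset.card_univ,
    Fintype.card_prod, nsmul_eq_mul]
  push_cast
  rw [← hc]
  have hc0 : 0 ≤ c ^ 2 := sq_nonneg c
  nlinarith [mul_nonneg hc0 (sq_nonneg β)]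

end one

section many

variable {C : Type} [AddCommGroup C] [Fintype C] [DecidableEq C] {k : ℕ}

theorem card_lift (τ : Fin k → Ty) (x : Fin k → C × C) :
    (#{n : Fin k → C × C | (fun i => (τ i).lift (n i)) = x} : ℝ) = ∏ i, cnt (τ i) (x i) := by
  have h : ({n : Fin k → C × C | (fun i => (τ i).lift (n i)) = x} : Finset (Fin k → C × C)) =
      Fintype.piFinset fun i => ({n : C × C | (τ i).lift n = x i} : Finset (C × C)) := by
    ext n
    simp [funext_iff]
  rw [h, Fintype.card_piFinset]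
  push_cast
  rfl

/-- The density of the lifted coefficients. -/
noncomputable def H (β : ℝ) (x : Fin k → C × C) : ℝ :=
  ∑ τ : Fin k → Ty, wts β τ * #{n : Fin k → C × C | (fun i => (τ i).lift (n i)) = x}

theorem H_eq (β : ℝ) (x : Fin k → C × C) : H β x = ∏ i, dens β (x i) := by
  unfold H dens
  rw [Finset.prod_univ_sum, Fintype.piFinset_univ]
  refine Finset.sum_congr rfl fun τ _ => ?_
  rw [card_lift, wts, ← Finset.prod_mul_distrib]

theorem sum_H (β : ℝ) : ∑ x : Fin k → C × C, H β x = Fintype.card (Fin k → C × C) := by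
  simp_rw [H_eq]
  rw [← Fintype.piFinset_univ, ← Finset.prod_univ_sum]
  simp_rw [sum_dens]
  rw [Finset.prod_const, Finset.card_univ, Fintype.card_fin, Fintype.card_fun, Fintype.card_prod,
    Fintype.card_fin]
  push_cast
  ring

theorem sum_H_sq {β : ℝ} (h0 : 0 ≤ β) (h1 : β ≤ 1) : ∑ x : Fin k → C × C, H β x ^ 2 ≤
    Fintype.card (Fin k → C × C) * Real.exp (k * β ^ 2 * (Fintype.card C : ℝ) ^ 2) := by
  simp_rw [H_eq, ← Finset.prod_pow]
  have h3 := Finset.prod_univ_sum (fun _ : Fin k => (univ : Finset (C × C)))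
    (fun _ y => dens β y ^ 2)
  rw [Fintype.piFinset_univ] at h3
  rw [← h3]
  have h2 : ∏ _i : Fin k, ∑ y : C × C, dens β y ^ 2 ≤ ∏ _i : Fin k,
      ((Fintype.card C : ℝ) ^ 2 * Real.exp (β ^ 2 * (Fintype.card C : ℝ) ^ 2)) := by
    refine Finset.prod_le_prod (fun i _ => Finset.sum_nonneg fun y _ => sq_nonneg _) fun i _ => ?_
    refine (sum_dens_sq h0 h1).trans (mul_le_mul_of_nonneg_left ?_ (sq_nonneg _))
    rw [add_comm]
    exact Real.add_one_le_exp _
  refine h2.trans (le_of_eq ?_)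
  rw [Finset.prod_const, Finset.card_univ, Fintype.card_fin, Fintype.card_fun, Fintype.card_prod,
    Fintype.card_fin, mul_pow, ← Real.exp_nat_mul]
  push_cast
  rw [show (k : ℝ) * β ^ 2 * (Fintype.card C : ℝ) ^ 2 = k * (β ^ 2 * (Fintype.card C : ℝ) ^ 2) by
    ring]
  ring

theorem sum_lift (β : ℝ) (Φ : (Fin k → C × C) → ℝ) :
    ∑ τ : Fin k → Ty, wts β τ * ∑ n : Fin k → C × C, Φ (fun i => (τ i).lift (n i)) =
      ∑ x : Fin k → C × C, H β x * Φ x := by
  unfold H
  simp_rw [Finset.sum_mul]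
  rw [Finset.sum_comm]
  refine Finset.sum_congr rfl fun τ _ => ?_
  have h : ∑ n : Fin k → C × C, Φ (fun i => (τ i).lift (n i)) = ∑ x : Fin k → C × C,
      (#{n : Fin k → C × C | (fun i => (τ i).lift (n i)) = x} : ℝ) * Φ x := by
    rw [← Finset.sum_fiberwise_of_maps_to (s := univ) (t := univ)
      (g := fun n : Fin k → C × C => fun i => (τ i).lift (n i)) fun _ _ => mem_univ _]
    refine Finset.sum_congr rfl fun x _ => ?_
    rw [Finset.sum_congr rfl (g := fun _ => Φ x)]
    · rw [Finset.sum_const, nsmul_eq_mul]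
    · intro n hn
      rw [(Finset.mem_filter.1 hn).2]
  rw [h, Finset.mul_sum]
  refine Finset.sum_congr rfl fun x _ => ?_
  ring

end many

/-- The lifted coefficients are almost uniformly distributed. -/
theorem covering : Covering := by
  classical
  intro C _ _ k β h0 h1 K Φ hΦ0 hΦK
  set c : ℝ := (Fintype.card (Fin k → C × C) : ℝ) with hc
  have hc0 : 0 < c := by
    rw [hc]
    exact_mod_cast Fintype.card_pos
  have hK : 0 ≤ K := (hΦ0 fun _ => 0).trans (hΦK fun _ => 0)
  set E := Real.exp (k * β ^ 2 * (Fintype.card C : ℝ) ^ 2) with hE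
  have h2 : (∑ τ : Fin k → Ty, wts β τ * ((∑ n : Fin k → C × C, Φ fun i => (τ i).lift (n i)) / c)) -
      (∑ n : Fin k → C × C, Φ n) / c = (∑ x : Fin k → C × C, (H β x - 1) * Φ x) / c := by
    have h3 : (∑ τ : Fin k → Ty,
        wts β τ * ((∑ n : Fin k → C × C, Φ fun i => (τ i).lift (n i)) / c)) =
        (∑ x : Fin k → C × C, H β x * Φ x) / c := by
      rw [← sum_lift, Finset.sum_div]
      exact Finset.sum_congr rfl fun τ _ => by ring
    rw [h3, ← sub_div, ← Finset.sum_sub_distrib]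
    congr 1
    exact Finset.sum_congr rfl fun x _ => by ring
  rw [h2, abs_div, abs_of_pos hc0, div_le_iff₀ hc0]
  have h4 : |∑ x : Fin k → C × C, (H β x - 1) * Φ x| ≤ K * ∑ x : Fin k → C × C, |H β x - 1| := by
    refine (Finset.abs_sum_le_sum_abs _ _).trans ?_
    rw [Finset.mul_sum]
    refine Finset.sum_le_sum fun x _ => ?_
    rw [abs_mul, abs_of_nonneg (hΦ0 x), mul_comm]
    exact mul_le_mul_of_nonneg_right (hΦK x) (abs_nonneg _)
  refine h4.trans ?_
  rw [mul_assoc]
  refine mul_le_mul_of_nonneg_left ?_ hK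
  have h5 : (∑ x : Fin k → C × C, |H β x - 1|) ^ 2 ≤
      c * ∑ x : Fin k → C × C, (H β x - 1) ^ 2 := by
    have := sq_sum_le_card_mul_sum_sq (s := (univ : Finset (Fin k → C × C)))
      (f := fun x => |H β x - 1|)
    simp only [sq_abs, Finset.card_univ] at this
    exact this
  have h6 : ∑ x : Fin k → C × C, (H β x - 1) ^ 2 ≤ c * (E - 1) := by
    have h7 : ∑ x : Fin k → C × C, (H β x - 1) ^ 2 =
        (∑ x : Fin k → C × C, H β x ^ 2) - 2 * (∑ x : Fin k → C × C, H β x) + c := by
      rw [Finset.mul_sum, ← Finset.sum_sub_distrib, hc, ← Finset.card_univ,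
        Finset.cast_card, ← Finset.sum_add_distrib]
      exact Finset.sum_congr rfl fun x _ => by ring
    rw [h7, sum_H]
    have h8 := sum_H_sq (C := C) (k := k) h0 h1
    rw [← hc, ← hE] at h8
    rw [← hc]
    nlinarith
  have h9 : (∑ x : Fin k → C × C, |H β x - 1|) ^ 2 ≤ c ^ 2 * (E - 1) := by
    refine h5.trans ?_
    rw [sq, mul_assoc]
    exact mul_le_mul_of_nonneg_left h6 hc0.le
  have hE1 : 0 ≤ E - 1 := by
    rw [hE, sub_nonneg]
    exact Real.one_le_exp (by positivity)
  have h10 : ∑ x : Fin k → C × C, |H β x - 1| ≤ √(c ^ 2 * (E - 1)) :=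
    Real.le_sqrt_of_sq_le h9
  rw [Real.sqrt_mul (sq_nonneg c), Real.sqrt_sq hc0.le] at h10
  linarith

/-- Given the lifted coefficients a block is replaced or dropped with small probability. -/
theorem posterior : Posterior := by
  intro C _ _ _ k β h0 h1 n₀ i
  have h1' : β ≤ 1 := h1.le
  have hb : 0 < 1 - β := by linarith
  change _ ≤ _ * H β n₀
  have h2 : (∑ τ : Fin k → Ty, (if τ i = .full then 0 else
      wts β τ * #{n : Fin k → C × C | (fun i => (τ i).lift (n i)) = n₀})) =
      ∏ j, if j = i then part β (n₀ j) else dens β (n₀ j) := by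
    have h3 : ∀ j : Fin k, (if j = i then part β (n₀ j) else dens β (n₀ j)) =
        ∑ τ : Ty, if j = i ∧ τ = .full then 0 else τ.wt β * cnt τ (n₀ j) := by
      intro j
      by_cases h : j = i
      · simp [h, part]
      · simp [h, dens]
    simp_rw [h3]
    rw [Finset.prod_univ_sum, Fintype.piFinset_univ]
    refine Finset.sum_congr rfl fun τ _ => ?_
    by_cases h : τ i = .full
    · rw [if_pos h]
      exact (Finset.prod_eq_zero (mem_univ i) (by rw [if_pos ⟨rfl, h⟩])).symm
    · rw [if_neg h, card_lift, wts, ← Finset.prod_mul_distrib]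
      refine Finset.prod_congr rfl fun j _ => ?_
      rw [if_neg]
      rintro ⟨rfl, h4⟩
      exact h h4
  rw [h2, H_eq, ← Finset.mul_prod_erase univ _ (mem_univ i),
    ← Finset.mul_prod_erase univ (fun j => dens β (n₀ j)) (mem_univ i), if_pos rfl]
  have h5 : ∏ j ∈ univ.erase i, (if j = i then part β (n₀ j) else dens β (n₀ j)) =
      ∏ j ∈ univ.erase i, dens β (n₀ j) := by
    refine Finset.prod_congr rfl fun j hj => ?_
    rw [if_neg (Finset.ne_of_mem_erase hj)]
  rw [h5, ← mul_assoc]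
  refine mul_le_mul_of_nonneg_right ?_ (Finset.prod_nonneg fun j _ => dens_nonneg h0 h1' _)
  have h6 : 1 - β ≤ dens β (n₀ i) := by
    rw [dens_eq]
    have := part_nonneg h0 h1' (n₀ i)
    linarith
  calc part β (n₀ i) ≤ β * (Fintype.card C : ℝ) ^ 2 := part_le h0 h1' _
    _ = β * (Fintype.card C : ℝ) ^ 2 / (1 - β) * (1 - β) := by field_simp
    _ ≤ β * (Fintype.card C : ℝ) ^ 2 / (1 - β) * dens β (n₀ i) :=
        mul_le_mul_of_nonneg_left h6 (by positivity)

end Vale.Agent.P325.H914
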