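import Vale.Agent.P325.H914.Transfer

/-!
# Transfer of densities of agreement between the tables of the two provers
-/

namespace Vale.Agent.P325.H914

open Vale.Agent.P325.Star

section card

variable {T W : Type} [AddCommGroup T] [Module F T] [Finite T] [AddCommGroup W] [Module F W]
  [Finite W]

theorem finite_hom : Finite (T →ₗ[F] W) :=
  Finite.of_injective (fun f : T →ₗ[F] W => (f : T → W)) DFunLike.coe_injective

theorem card_module (A : Type) [AddCommGroup A] [Module F A] [Finite A] :
    Nat.card A = 2 ^ Module.finrank F A := by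
  have : Fintype A := Fintype.ofFinite A
  rw [Nat.card_eq_fintype_card, Module.card_eq_pow_finrank (K := F)]
  simp [F]

/-- The number of linear maps. -/
theorem card_hom (A : Type) [AddCommGroup A] [Module F A] [Finite A] (B : Type) [AddCommGroup B]
    [Module F B] [Finite B] : Nat.card (A →ₗ[F] B) = Nat.card B ^ Module.finrank F A := by
  let b := Module.finBasis F A
  have e : (Fin (Module.finrank F A) → B) ≃ (A →ₗ[F] B) := (b.constr F).toEquiv
  rw [← Nat.card_congr e, Nat.card_fun, Nat.card_fin]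

variable (B : Submodule F W)

/-- The restriction of the maps with range in `B` to a space of points. -/
def resB (A : Submodule F T) : (zoom B (⊥ : Submodule F T)) →ₗ[F] (A →ₗ[F] B) where
  toFun M := LinearMap.codRestrict B (M.1 ∘ₗ A.subtype) fun a => (mem_zoom.1 M.2).1 a
  map_add' M N := by
    ext a
    rfl
  map_smul' c M := by
    ext a
    rfl

omit [Finite T] [Finite W] in
theorem resB_apply (A : Submodule F T) (M : zoom B (⊥ : Submodule F T)) (a : A) :
    ((resB B A M a : B) : W) = M.1 a := rfl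

omit [Finite T] [Finite W] in
theorem resB_surj (A : Submodule F T) : Function.Surjective (resB B A) := by
  intro φ
  obtain ⟨ψ, hψ⟩ := LinearMap.exists_extend φ
  have h : B.subtype ∘ₗ ψ ∈ zoom B (⊥ : Submodule F T) := by
    rw [mem_zoom]
    refine ⟨fun v => (ψ v).2, fun a ha => ?_⟩
    rw [(Submodule.mem_bot F).1 ha, map_zero]
  refine ⟨⟨_, h⟩, ?_⟩
  refine LinearMap.ext fun a => Subtype.ext ?_
  rw [resB_apply]
  have h2 := LinearMap.congr_fun hψ a
  simp only [LinearMap.comp_apply, Submodule.subtype_apply] at h2 ⊢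
  rw [h2]

/-- The number of maps of the coset with prescribed values. -/
theorem card_zm (s : Tup T W) (N₀ : T →ₗ[F] W) (h : (s.zm B N₀).Nonempty) :
    Nat.card (s.zm B N₀) * Nat.card B ^ Module.finrank F s.A =
      Nat.card (zoom B (⊥ : Submodule F T)) := by
  have := finite_hom (T := T) (W := W)
  obtain ⟨N₁, h1, h2⟩ := h
  have e : s.zm B N₀ ≃ LinearMap.ker (resB B s.A) := {
    toFun := fun N => ⟨⟨N.1 - N₁, by
      have := (zoom B (⊥ : Submodule F T)).sub_mem N.2.1 h1
      simpa using this⟩, by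
        rw [LinearMap.mem_ker]
        refine LinearMap.ext fun a => Subtype.ext ?_
        rw [resB_apply]
        simp [N.2.2 a, h2 a]⟩
    invFun := fun M => ⟨M.1.1 + N₁, by
      refine ⟨?_, fun a => ?_⟩
      · have := (zoom B (⊥ : Submodule F T)).add_mem M.1.2 h1
        rwa [add_sub_assoc]
      · have h3 : ((resB B s.A M.1 a : B) : W) = 0 := by
          rw [LinearMap.mem_ker.1 M.2]
          rfl
        rw [resB_apply] at h3
        rw [LinearMap.add_apply, h3, zero_add, h2 a]⟩
    left_inv := fun N => by simp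
    right_inv := fun M => by simp }
  rw [Nat.card_congr e, ← card_hom s.A B,
    ← Nat.card_congr ((resB B s.A).quotKerEquivOfSurjective (resB_surj B s.A)).toEquiv, mul_comm,
    ← Nat.card_prod]
  exact (Nat.card_congr (Submodule.toAddSubgroup (LinearMap.ker (resB B s.A))).addGroupEquivQuotientProdAddSubgroup).symm

/-- The density of agreement, without division by the number of maps with prescribed values. -/
theorem p_eq (s : Tup T W) (G : (T →ₗ[F] W) → W) (N₀ : T →ₗ[F] W) :
    s.p G B N₀ = (Nat.card B : ℝ) ^ Module.finrank F s.A * Nat.card (s.ev G B N₀) /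
      Nat.card (zoom B (⊥ : Submodule F T)) := by
  have := finite_hom (T := T) (W := W)
  unfold Tup.p
  by_cases h : (s.zm B N₀).Nonempty
  · have h1 := card_zm B s N₀ h
    have h2 : 0 < Nat.card (s.zm B N₀) := by
      have : Nonempty (s.zm B N₀) := h.to_subtype
      exact Nat.card_pos
    have h3 : 0 < Nat.card B := Nat.card_pos
    have h2' : (0 : ℝ) < Nat.card (s.zm B N₀) := by exact_mod_cast h2
    have h3' : (0 : ℝ) < Nat.card B := by exact_mod_cast h3
    rw [← h1]
    push_cast
    field_simp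
  · rw [Set.not_nonempty_iff_eq_empty] at h
    have h1 : s.ev G B N₀ = ∅ := by
      ext N
      simp [Tup.ev, h]
    rw [h, h1]
    simp

end card

section coef

variable {k : ℕ} {W : Type} [AddCommGroup W] [Module F W] (B : Submodule F W)

/-- Two tuples of coefficients are congruent modulo `B`. -/
def Cgr (n n₀ : Fin k → W × W) : Prop := ∀ i, (n i).1 - (n₀ i).1 ∈ B ∧ (n i).2 - (n₀ i).2 ∈ B

theorem Cgr.refl (n : Fin k → W × W) : Cgr B n n := fun i => by simp

variable {B} in
theorem Cgr.symm {n n₀ : Fin k → W × W} (h : Cgr B n n₀) : Cgr B n₀ n := fun i => by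
  refine ⟨?_, ?_⟩
  · have := B.neg_mem (h i).1
    rwa [neg_sub] at this
  · have := B.neg_mem (h i).2
    rwa [neg_sub] at this

variable {B} in
theorem Cgr.trans {n n₀ n₁ : Fin k → W × W} (h : Cgr B n n₀) (h' : Cgr B n₀ n₁) :
    Cgr B n n₁ := fun i => by
  refine ⟨?_, ?_⟩
  · have := B.add_mem (h i).1 (h' i).1
    rwa [sub_add_sub_cancel] at this
  · have := B.add_mem (h i).2 (h' i).2
    rwa [sub_add_sub_cancel] at this

theorem hom_sub_mem (n n₀ : Fin k → W × W) :
    hom n - hom n₀ ∈ zoom B (⊥ : Submodule F (Fin k → F × F)) ↔ Cgr B n n₀ := by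
  rw [mem_zoom]
  constructor
  · rintro ⟨h, -⟩ i
    have h1 := h (Pi.single i (1, 0))
    have h2 := h (Pi.single i (0, 1))
    have e1 : ∀ m : Fin k → W × W, hom m (Pi.single i (1, 0)) = (m i).1 := fun m =>
      congrArg Prod.fst (congrFun (homE.left_inv m) i)
    have e2 : ∀ m : Fin k → W × W, hom m (Pi.single i (0, 1)) = (m i).2 := fun m =>
      congrArg Prod.snd (congrFun (homE.left_inv m) i)
    rw [LinearMap.sub_apply, e1, e1] at h1
    rw [LinearMap.sub_apply, e2, e2] at h2
    exact ⟨h1, h2⟩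
  · intro h
    refine ⟨fun v => ?_, fun a ha => ?_⟩
    · rw [LinearMap.sub_apply, hom_apply, hom_apply, ← Finset.sum_sub_distrib]
      refine B.sum_mem fun i _ => ?_
      have h1 := B.smul_mem (v i).1 (h i).1
      have h2 := B.smul_mem (v i).2 (h i).2
      have h3 := B.add_mem h1 h2
      rw [smul_sub, smul_sub] at h3
      convert h3 using 1
      abel
    · rw [(Submodule.mem_bot F).1 ha, map_zero]

/-- The coefficients of the coset for which the composition with the projection has the values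
of the tuple and agrees with the table `G`. -/
def evn (τ : Fin k → Ty) (s : Tup (Fin k → F × F) W) (G : ((Fin k → F × F) →ₗ[F] W) → W)
    (n₀ : Fin k → W × W) : Set (Fin k → W × W) :=
  {n | Cgr B n n₀ ∧ (∀ a : s.A, hom n (piL τ a) = s.b a) ∧
    G (hom n ∘ₗ piL τ) = hom n (piL τ s.t) + s.w}

/-- The density of the tuple seen through the projection. -/
noncomputable def dn (τ : Fin k → Ty) (s : Tup (Fin k → F × F) W)
    (G : ((Fin k → F × F) →ₗ[F] W) → W) (n₀ : Fin k → W × W) : ℝ :=
  (Nat.card B : ℝ) ^ Module.finrank F s.A * Nat.card (evn B τ s G n₀) /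
    Nat.card {n : Fin k → W × W | Cgr B n n₀}

/-- The number of coefficients of a coset. -/
theorem card_cgr (n₀ : Fin k → W × W) : Nat.card {n : Fin k → W × W | Cgr B n n₀} =
    Nat.card (zoom B (⊥ : Submodule F (Fin k → F × F))) := by
  refine Nat.card_congr {
    toFun := fun n => ⟨hom n.1 - hom n₀, (hom_sub_mem B _ _).2 n.2⟩
    invFun := fun M => ⟨homE.symm (M.1 + hom n₀), ?_⟩
    left_inv := fun n => ?_
    right_inv := fun M => ?_ }
  · change Cgr B _ _
    rw [← hom_sub_mem, ← homE_apply, Equiv.apply_symm_apply, add_sub_cancel_right]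
    exact M.2
  · refine Subtype.ext ?_
    change homE.symm _ = _
    rw [sub_add_cancel, ← homE_apply, Equiv.symm_apply_apply]
  · refine Subtype.ext ?_
    change hom (homE.symm _) - _ = _
    rw [← homE_apply, Equiv.apply_symm_apply, add_sub_cancel_right]

variable [Finite W]

/-- The density for the first prover. -/
theorem p_eq_dn (s : Tup (Fin k → F × F) W) (G : ((Fin k → F × F) →ₗ[F] W) → W)
    (n₀ : Fin k → W × W) :
    s.p G B (hom n₀) = (Nat.card B : ℝ) ^ Module.finrank F s.A *
      Nat.card {n : Fin k → W × W | Cgr B n n₀ ∧ (∀ a : s.A, hom n a = s.b a) ∧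
        G (hom n) = hom n s.t + s.w} / Nat.card {n : Fin k → W × W | Cgr B n n₀} := by
  rw [p_eq, card_cgr]
  congr 3
  refine (Nat.card_congr (homE.subtypeEquiv fun n => ?_)).symm
  change _ ↔ (hom n - hom n₀ ∈ _ ∧ _) ∧ _
  rw [hom_sub_mem, and_assoc]
  rfl

/-- The tuple `s'` of the second prover corresponds to the tuple `s` of the first. -/
structure Corr (τ : Fin k → Ty) (v : Fin k → F × F) (s s' : Tup (Fin k → F × F) W) : Prop where
  A : s'.A = s.A.map (piL τ)
  b : ∀ (a : s.A) (h : piL τ a ∈ s'.A), s'.b ⟨piL τ a, h⟩ = s.b a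
  t : s'.t = piL τ s.t + v
  w : s'.w = s.w

/-- The relation between the tables of the two provers. -/
def Rel (τ : Fin k → Ty) (v : Fin k → F × F) (G GV : ((Fin k → F × F) →ₗ[F] W) → W) : Prop :=
  ∀ N : (Fin k → F × F) →ₗ[F] W, G (N ∘ₗ piL τ) = GV N + N v

omit [Finite W] in
theorem two_smul_zero (x : W) : x + x = 0 := by
  rw [← two_smul F x]
  have : (2 : F) = 0 := by decide
  rw [this, zero_smul]

/-- Density transfer. -/
theorem Corr.p_eq {τ : Fin k → Ty} {v : Fin k → F × F} {s s' : Tup (Fin k → F × F) W}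
    (h : Corr τ v s s') (hinj : ∀ a ∈ s.A, piL τ a = 0 → a = 0)
    {G GV : ((Fin k → F × F) →ₗ[F] W) → W} (hG : Rel τ v G GV) (n₀ : Fin k → W × W) :
    s'.p GV B (hom n₀) = dn B τ s G n₀ := by
  rw [p_eq_dn, dn]
  have h1 : Module.finrank F s'.A = Module.finrank F s.A := by
    rw [h.A]
    have h2 : Function.Injective ((piL τ).domRestrict s.A) := by
      rw [← LinearMap.ker_eq_bot, LinearMap.ker_eq_bot']
      intro a ha
      exact Subtype.ext (hinj a a.2 ha)
    rw [← LinearMap.range_domRestrict, LinearMap.finrank_range_of_inj h2]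
  have h3 : {n : Fin k → W × W | Cgr B n n₀ ∧ (∀ a : s'.A, hom n a = s'.b a) ∧
      GV (hom n) = hom n s'.t + s'.w} = evn B τ s G n₀ := by
    ext n
    refine and_congr_right fun _ => and_congr ⟨fun h4 a => ?_, fun h4 a => ?_⟩ ?_
    · have h5 : piL τ a ∈ s'.A := by
        rw [h.A]
        exact Submodule.mem_map_of_mem a.2
      rw [← h.b a h5]
      exact h4 ⟨piL τ a, h5⟩
    · obtain ⟨a, ha⟩ := a
      have h5 := ha
      rw [h.A] at h5
      obtain ⟨a', ha', rfl⟩ := h5
      rw [h.b ⟨a', ha'⟩ ha]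
      exact h4 ⟨a', ha'⟩
    · rw [hG, h.t, h.w, map_add]
      constructor
      · intro h4
        rw [h4, add_right_comm _ _ (hom n v), add_assoc (hom n _) (hom n v), two_smul_zero,
          add_zero]
      · intro h4
        have h5 := congrArg (· + hom n v) h4
        simp only [add_assoc, two_smul_zero, add_zero] at h5
        rw [h5]
        abel
  rw [h1, h3]

omit [Finite W] in
/-- There is a corresponding tuple. -/
theorem exists_corr (τ : Fin k → Ty) (v : Fin k → F × F) (s : Tup (Fin k → F × F) W)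
    (hinj : ∀ a ∈ s.A, piL τ a = 0 → a = 0) : ∃ s' : Tup (Fin k → F × F) W, Corr τ v s s' := by
  have h2 : Function.Injective ((piL τ).domRestrict s.A) := by
    rw [← LinearMap.ker_eq_bot, LinearMap.ker_eq_bot']
    intro a ha
    exact Subtype.ext (hinj a a.2 ha)
  let e := LinearEquiv.ofInjective ((piL τ).domRestrict s.A) h2
  refine ⟨⟨LinearMap.range ((piL τ).domRestrict s.A), s.b ∘ₗ e.symm.toLinearMap,
    piL τ s.t + v, s.w⟩, ⟨LinearMap.range_domRestrict _ _, fun a h => ?_, rfl, rfl⟩⟩
  have h3 : (⟨piL τ a, h⟩ : LinearMap.range ((piL τ).domRestrict s.A)) = e a := Subtype.ext rfl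
  change s.b (e.symm _) = _
  rw [h3, LinearEquiv.symm_apply_apply]

omit [Finite W] in
/-- The restrictions of the tuple of the second prover come from restrictions of the tuple of
the first. -/
theorem Corr.sub {τ : Fin k → Ty} {v : Fin k → F × F} {s s' : Tup (Fin k → F × F) W}
    (h : Corr τ v s s') (A'' : Submodule F (Fin k → F × F)) (h1 : A'' ≤ s'.A) (h2 : A'' ≠ s'.A)
    (a'' : s'.A) : ∃ (A' : Submodule F (Fin k → F × F)) (h3 : A' ≤ s.A) (a : s.A), A' ≠ s.A ∧
      Corr τ v (s.sub A' h3 a) (s'.sub A'' h1 a'') := by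
  obtain ⟨a'', ha''⟩ := a''
  have h4 := ha''
  rw [h.A] at h4
  obtain ⟨a, ha, rfl⟩ := h4
  have h5 : (s.A ⊓ A''.comap (piL τ)).map (piL τ) = A'' := by
    refine le_antisymm ?_ fun x hx => ?_
    · rw [Submodule.map_le_iff_le_comap]
      exact inf_le_right
    · have h6 := h1 hx
      rw [h.A] at h6
      obtain ⟨y, hy, rfl⟩ := h6
      exact Submodule.mem_map_of_mem ⟨hy, hx⟩
  refine ⟨s.A ⊓ A''.comap (piL τ), inf_le_left, ⟨a, ha⟩, fun h6 => h2 ?_, ⟨h5.symm, ?_, ?_, ?_⟩⟩
  · rw [h.A, ← h5, h6]
  · intro b hb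
    exact h.b ⟨b, b.2.1⟩ (h1 hb)
  · change s'.t + piL τ a = piL τ (s.t + a) + v
    rw [h.t, map_add]
    abel
  · change s'.w + s'.b _ = s.w + s.b _
    rw [h.w, h.b ⟨a, ha⟩ ha'']

omit [Finite W] in
/-- The coset may be replaced by one with the same visible part. -/
theorem dn_congr {τ : Fin k → Ty} (s : Tup (Fin k → F × F) W)
    (G : ((Fin k → F × F) →ₗ[F] W) → W) {n₀ n₁ : Fin k → W × W}
    (h : Cgr B (fun i => (τ i).vis (n₀ i)) fun i => (τ i).vis (n₁ i)) :
    dn B τ s G n₀ = dn B τ s G n₁ := by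
  unfold dn
  rw [card_cgr, card_cgr]
  congr 3
  -- the translation that changes the hidden coordinates only
  set d : Fin k → W × W := fun i => n₁ i - n₀ i with hd
  set d' : Fin k → W × W := fun i => d i - (τ i).vis (d i) with hd'
  have hvis : ∀ (τ : Ty) (x y : W × W), τ.vis (x - y) = τ.vis x - τ.vis y := by
    intro τ x y
    cases τ <;> simp [Ty.vis, Prod.ext_iff]
  have hproj : ∀ m : Fin k → W × W, hom (fun i => m i + d' i) ∘ₗ piL τ = hom m ∘ₗ piL τ := by
    intro m
    refine LinearMap.ext fun t => ?_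
    rw [LinearMap.comp_apply, LinearMap.comp_apply, hom_apply, hom_apply]
    refine Finset.sum_congr rfl fun i _ => ?_
    rw [hd']
    simp only [piL_apply]
    cases τ i <;> simp [pr, Ty.vis]
  have hc : ∀ m : Fin k → W × W, Cgr B m n₀ ↔ Cgr B (fun i => m i + d' i) n₁ := by
    intro m
    have h1 : ∀ i, (m i + d' i) - n₁ i = (m i - n₀ i) - (τ i).vis (n₁ i - n₀ i) := by
      intro i
      simp only [hd', hd]
      abel
    have h2 : ∀ i, ((τ i).vis (n₁ i - n₀ i)).1 ∈ B ∧ ((τ i).vis (n₁ i - n₀ i)).2 ∈ B := by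
      intro i
      rw [hvis]
      exact h.symm i
    refine forall_congr' fun i => ?_
    have h3 := congrArg Prod.fst (h1 i)
    have h4 := congrArg Prod.snd (h1 i)
    simp only [Prod.fst_sub, Prod.snd_sub, Prod.fst_add, Prod.snd_add] at h3 h4
    simp only [Prod.fst_add, Prod.snd_add]
    rw [h3, h4]
    rw [Submodule.sub_mem_iff_left _ (h2 i).1, Submodule.sub_mem_iff_left _ (h2 i).2]
  refine Nat.card_congr {
    toFun := fun m => ⟨fun i => m.1 i + d' i, (hc _).1 m.2.1, ?_, ?_⟩
    invFun := fun m => ⟨fun i => m.1 i - d' i, ?_, ?_, ?_⟩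
    left_inv := fun m => ?_
    right_inv := fun m => ?_ }
  · intro a
    have h1 := LinearMap.congr_fun (hproj m.1) a
    simp only [LinearMap.comp_apply] at h1
    rw [h1]
    exact m.2.2.1 a
  · have h1 := LinearMap.congr_fun (hproj m.1) s.t
    simp only [LinearMap.comp_apply] at h1
    rw [hproj, h1]
    exact m.2.2.2
  · rw [hc]
    simp only [sub_add_cancel]
    exact m.2.1
  · intro a
    have h1 := LinearMap.congr_fun (hproj fun i => m.1 i - d' i) a
    simp only [LinearMap.comp_apply, sub_add_cancel] at h1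
    rw [← h1]
    exact m.2.2.1 a
  · have h1 := LinearMap.congr_fun (hproj fun i => m.1 i - d' i) s.t
    have h2 := hproj fun i => m.1 i - d' i
    simp only [LinearMap.comp_apply, sub_add_cancel] at h1 h2
    rw [← h1, ← h2]
    exact m.2.2.2
  · refine Subtype.ext ?_
    simp
  · refine Subtype.ext ?_
    simp

end coef

end Vale.Agent.P325.H914
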