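import Vale.Agent.P325.H424.OneTable
import Vale.Agent.P325.H914.Cover
import Vale.Agent.P325.H914.Density

/-!
# The probability that the selected tuple becomes a candidate of the second prover

A first moment argument with one test function.
-/

namespace Vale.Agent.P325.H914

open Finset Vale.Agent.P325.Star Vale.Agent.P325.H424

/-- The indicator of a proposition. -/
noncomputable def ind (P : Prop) : ℝ := by
  classical
  exact if P then 1 else 0

theorem ind_true {P : Prop} (h : P) : ind P = 1 := by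
  unfold ind
  exact if_pos h

theorem ind_false {P : Prop} (h : ¬ P) : ind P = 0 := by
  unfold ind
  exact if_neg h

theorem ind_nonneg (P : Prop) : 0 ≤ ind P := by
  by_cases h : P
  · rw [ind_true h]; norm_num
  · rw [ind_false h]

theorem ind_le_one (P : Prop) : ind P ≤ 1 := by
  by_cases h : P
  · rw [ind_true h]
  · rw [ind_false h]; norm_num

theorem ind_congr {P Q : Prop} (h : P ↔ Q) : ind P = ind Q := by
  rw [propext h]

theorem ind_and (P Q : Prop) : ind (P ∧ Q) = ind P * ind Q := by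
  by_cases hP : P
  · by_cases hQ : Q
    · rw [ind_true ⟨hP, hQ⟩, ind_true hP, ind_true hQ, one_mul]
    · rw [ind_false fun h => hQ h.2, ind_false hQ, mul_zero]
  · rw [ind_false fun h => hP h.1, ind_false hP, zero_mul]

theorem natCard_eq_sum {α : Type} [Fintype α] (P : α → Prop) :
    (Nat.card {a | P a} : ℝ) = ∑ a, ind (P a) := by
  classical
  have h : ∀ a, ind (P a) = if P a then (1 : ℝ) else 0 := by
    intro a
    by_cases h : P a
    · rw [ind_true h, if_pos h]
    · rw [ind_false h, if_neg h]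
  simp_rw [h]
  rw [Finset.sum_boole, Nat.card_eq_fintype_card]
  congr 1
  rw [Fintype.card_subtype]
  rfl

section count

variable {T W : Type} [AddCommGroup T] [Module F T] [Finite T] [AddCommGroup W] [Module F W]

instance finite_submodule : Finite (Submodule F T) :=
  Finite.of_injective (fun A : Submodule F T => (A : Set T)) SetLike.coe_injective

/-- The proper restrictions of a tuple. -/
abbrev Subs (s : Tup T W) : Type := {A' : Submodule F T // A' ≤ s.A ∧ A' ≠ s.A} × s.A

noncomputable instance (s : Tup T W) : Fintype (Subs s) := Fintype.ofFinite _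

/-- The tuple of a restriction. -/
def Subs.tup {s : Tup T W} (x : Subs s) : Tup T W := s.sub x.1.1 x.1.2.1 x.2

theorem card_subs (s : Tup T W) {j : ℕ} (h : Module.finrank F s.A = j) :
    Fintype.card (Subs s) ≤ 2 ^ (2 ^ j + j) := by
  have h1 : Nat.card s.A = 2 ^ j := by rw [card_module, h]
  have h2 : Nat.card {A' : Submodule F T // A' ≤ s.A ∧ A' ≠ s.A} ≤ 2 ^ 2 ^ j := by
    have hinj : Function.Injective (fun A' : {A' : Submodule F T // A' ≤ s.A ∧ A' ≠ s.A} =>
        ({x | (x : T) ∈ A'.1} : Set s.A)) := by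
      rintro ⟨A, hA, _⟩ ⟨A', hA', _⟩ hAA
      refine Subtype.ext (le_antisymm (fun x hx => ?_) fun x hx => ?_)
      · exact (Set.ext_iff.1 hAA ⟨x, hA hx⟩).1 hx
      · exact (Set.ext_iff.1 hAA ⟨x, hA' hx⟩).2 hx
    refine (Nat.card_le_card_of_injective _ hinj).trans (le_of_eq ?_)
    classical
    have : Fintype s.A := Fintype.ofFinite _
    rw [Nat.card_eq_fintype_card, Fintype.card_set, ← h1, Nat.card_eq_fintype_card]
  rw [← Nat.card_eq_fintype_card, Nat.card_prod, h1, pow_add]
  exact Nat.mul_le_mul_right _ h2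

end count

section test

variable {k : ℕ} {W : Type} [AddCommGroup W] [Module F W] (B : Submodule F W)

/-- The test function of a tuple. -/
noncomputable def tst (θ : ℝ) (G : ((Fin k → F × F) →ₗ[F] W) → W) (s : Tup (Fin k → F × F) W)
    (M : (Fin k → F × F) →ₗ[F] W) : ℝ :=
  (Nat.card B : ℝ) ^ Module.finrank F s.A * ind (Ev s G M) -
    8 / θ * (∑ x : Subs s, (Nat.card B : ℝ) ^ Module.finrank F x.tup.A * ind (Ev x.tup G M)) -
    θ / 2

/-- The density of a tuple along a map of the points. -/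
noncomputable def dd (π : (Fin k → F × F) →ₗ[F] (Fin k → F × F))
    (G : ((Fin k → F × F) →ₗ[F] W) → W) (s : Tup (Fin k → F × F) W) (n₀ : Fin k → W × W) : ℝ :=
  (Nat.card B : ℝ) ^ Module.finrank F s.A *
    Nat.card {n : Fin k → W × W | Cgr B n n₀ ∧ Ev s G (hom n ∘ₗ π)} /
    Nat.card {n : Fin k → W × W | Cgr B n n₀}

theorem dd_nonneg (π : (Fin k → F × F) →ₗ[F] (Fin k → F × F))
    (G : ((Fin k → F × F) →ₗ[F] W) → W) (s : Tup (Fin k → F × F) W) (n₀ : Fin k → W × W) :
    0 ≤ dd B π G s n₀ := by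
  unfold dd
  positivity

variable [Fintype W]

theorem dd_id (G : ((Fin k → F × F) →ₗ[F] W) → W) (s : Tup (Fin k → F × F) W)
    (n₀ : Fin k → W × W) : dd B LinearMap.id G s n₀ = s.p G B (hom n₀) := by
  rw [p_eq_dn]
  rfl

omit [Fintype W] in
theorem dd_piL (τ : Fin k → Ty) (G : ((Fin k → F × F) →ₗ[F] W) → W) (s : Tup (Fin k → F × F) W)
    (n₀ : Fin k → W × W) : dd B (piL τ) G s n₀ = dn B τ s G n₀ := rfl

/-- The number of coefficients of a coset. -/
noncomputable def cc (k : ℕ) (B : Submodule F W) : ℝ :=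
  Nat.card (zoom B (⊥ : Submodule F (Fin k → F × F)))

theorem cc_pos : 0 < cc k B := by
  have := finite_hom (T := Fin k → F × F) (W := W)
  unfold cc
  exact_mod_cast (Nat.card_pos : 0 < Nat.card (zoom B (⊥ : Submodule F (Fin k → F × F))))

theorem sum_cgr (n₀ : Fin k → W × W) : ∑ n : Fin k → W × W, ind (Cgr B n n₀) = cc k B := by
  rw [← natCard_eq_sum, card_cgr]
  rfl

theorem sum_cgr' (n₀ : Fin k → W × W) : ∑ n : Fin k → W × W, ind (Cgr B n₀ n) = cc k B := by
  rw [← sum_cgr B n₀]
  exact Finset.sum_congr rfl fun n _ => ind_congr ⟨Cgr.symm, Cgr.symm⟩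

theorem sum_dd (π : (Fin k → F × F) →ₗ[F] (Fin k → F × F)) (G : ((Fin k → F × F) →ₗ[F] W) → W)
    (s : Tup (Fin k → F × F) W) (n₀ : Fin k → W × W) :
    ∑ n : Fin k → W × W, ind (Cgr B n n₀) * ((Nat.card B : ℝ) ^ Module.finrank F s.A *
      ind (Ev s G (hom n ∘ₗ π))) = cc k B * dd B π G s n₀ := by
  unfold dd
  rw [card_cgr, natCard_eq_sum]
  change _ = cc k B * (_ / cc k B)
  rw [mul_div_cancel₀ _ (cc_pos B).ne', Finset.mul_sum]
  refine Finset.sum_congr rfl fun n _ => ?_
  rw [ind_and]
  ring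

/-- The average of the test function over a coset. -/
theorem sum_tst (θ : ℝ) (π : (Fin k → F × F) →ₗ[F] (Fin k → F × F))
    (G : ((Fin k → F × F) →ₗ[F] W) → W) (s : Tup (Fin k → F × F) W) (n₀ : Fin k → W × W) :
    ∑ n : Fin k → W × W, ind (Cgr B n n₀) * tst B θ G s (hom n ∘ₗ π) =
      cc k B * (dd B π G s n₀ - 8 / θ * (∑ x : Subs s, dd B π G x.tup n₀) - θ / 2) := by
  have h1 : ∀ n : Fin k → W × W, ind (Cgr B n n₀) * tst B θ G s (hom n ∘ₗ π) =
      ind (Cgr B n n₀) * ((Nat.card B : ℝ) ^ Module.finrank F s.A *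
        ind (Ev s G (hom n ∘ₗ π))) -
      8 / θ * (∑ x : Subs s, ind (Cgr B n n₀) * ((Nat.card B : ℝ) ^ Module.finrank F x.tup.A *
        ind (Ev x.tup G (hom n ∘ₗ π)))) - ind (Cgr B n n₀) * (θ / 2) := by
    intro n
    unfold tst
    rw [← Finset.mul_sum]
    ring
  rw [Finset.sum_congr rfl fun n _ => h1 n, Finset.sum_sub_distrib, Finset.sum_sub_distrib,
    sum_dd, ← Finset.mul_sum, Finset.sum_comm, ← Finset.sum_mul, sum_cgr]
  simp_rw [sum_dd]
  rw [← Finset.mul_sum]
  ring

omit [Fintype W] in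
theorem tst_le {θ : ℝ} (hθ : 0 < θ) (G : ((Fin k → F × F) →ₗ[F] W) → W)
    (s : Tup (Fin k → F × F) W) (M : (Fin k → F × F) →ₗ[F] W) :
    tst B θ G s M ≤ (Nat.card B : ℝ) ^ Module.finrank F s.A := by
  unfold tst
  have h1 : (Nat.card B : ℝ) ^ Module.finrank F s.A * ind (Ev s G M) ≤
      (Nat.card B : ℝ) ^ Module.finrank F s.A * 1 :=
    mul_le_mul_of_nonneg_left (ind_le_one _) (by positivity)
  have h2 : 0 ≤ 8 / θ * (∑ x : Subs s, (Nat.card B : ℝ) ^ Module.finrank F x.tup.A *
      ind (Ev x.tup G M)) :=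
    mul_nonneg (by positivity)
      (Finset.sum_nonneg fun x _ => mul_nonneg (by positivity) (ind_nonneg _))
  linarith

theorem le_tst {θ : ℝ} (hθ : 0 < θ) (G : ((Fin k → F × F) →ₗ[F] W) → W)
    (s : Tup (Fin k → F × F) W) (M : (Fin k → F × F) →ₗ[F] W) {j r : ℕ}
    (hj : Module.finrank F s.A = j) (hr : Fintype.card W ≤ r) :
    -(8 / θ * (2 ^ (2 ^ j + j) * (r : ℝ) ^ j) + θ / 2) ≤ tst B θ G s M := by
  unfold tst
  have hB1 : 1 ≤ Nat.card B := Nat.card_pos
  have hBr : Nat.card B ≤ r := by
    refine le_trans ?_ hr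
    rw [← Nat.card_eq_fintype_card]
    exact Nat.card_le_card_of_injective _ B.injective_subtype
  have h1 : 0 ≤ (Nat.card B : ℝ) ^ Module.finrank F s.A * ind (Ev s G M) :=
    mul_nonneg (by positivity) (ind_nonneg _)
  have h2 : ∑ x : Subs s, (Nat.card B : ℝ) ^ Module.finrank F x.tup.A *
      ind (Ev x.tup G M) ≤ 2 ^ (2 ^ j + j) * (r : ℝ) ^ j := by
    have h3 : ∀ x : Subs s, (Nat.card B : ℝ) ^ Module.finrank F x.tup.A *
        ind (Ev x.tup G M) ≤ (r : ℝ) ^ j := by
      intro x
      have h4 : Module.finrank F x.tup.A ≤ j := by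
        rw [← hj]
        exact Submodule.finrank_mono x.1.2.1
      calc (Nat.card B : ℝ) ^ Module.finrank F x.tup.A * ind (Ev x.tup G M)
          ≤ (Nat.card B : ℝ) ^ Module.finrank F x.tup.A * 1 :=
            mul_le_mul_of_nonneg_left (ind_le_one _) (by positivity)
        _ = ((Nat.card B ^ Module.finrank F x.tup.A : ℕ) : ℝ) := by push_cast; ring
        _ ≤ ((Nat.card B ^ j : ℕ) : ℝ) := by exact_mod_cast Nat.pow_le_pow_right hB1 h4
        _ ≤ ((r ^ j : ℕ) : ℝ) := by exact_mod_cast Nat.pow_le_pow_left hBr j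
        _ = (r : ℝ) ^ j := by push_cast; ring
    refine (Finset.sum_le_sum fun x _ => h3 x).trans ?_
    rw [Finset.sum_const, Finset.card_univ, nsmul_eq_mul]
    refine mul_le_mul_of_nonneg_right ?_ (by positivity)
    exact_mod_cast card_subs s hj
  have h5 : 8 / θ * (∑ x : Subs s, (Nat.card B : ℝ) ^ Module.finrank F x.tup.A *
      ind (Ev x.tup G M)) ≤ 8 / θ * (2 ^ (2 ^ j + j) * (r : ℝ) ^ j) :=
    mul_le_mul_of_nonneg_left h2 (by positivity)
  linarith

/-- The double counting over the cosets. -/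
theorem sum_sum_cgr (g : (Fin k → W × W) → ℝ) :
    ∑ n₀ : Fin k → W × W, ∑ n : Fin k → W × W, ind (Cgr B n n₀) * g n =
      cc k B * ∑ n : Fin k → W × W, g n := by
  rw [Finset.sum_comm, Finset.mul_sum]
  refine Finset.sum_congr rfl fun n _ => ?_
  rw [← Finset.sum_mul, sum_cgr']

end test

section main

variable {k : ℕ} {W : Type} [AddCommGroup W] [Module F W] [Fintype W] [DecidableEq W]
  (B : Submodule F W)

omit [Fintype W] [DecidableEq W] in
theorem corr_of_isPush {τ : Fin k → Ty} {v : Fin k → F × F} {s s' : Tup (Fin k → F × F) W}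
    (h : IsPush (piL τ) v s s') : Corr τ v s s' where
  A := by
    ext y
    rw [h.mem]
    constructor
    · rintro ⟨x, hx⟩
      exact ⟨x, x.2, hx⟩
    · rintro ⟨x, hx, hxy⟩
      exact ⟨⟨x, hx⟩, hxy⟩
  b := fun a h' => h.val a _ h' rfl
  t := h.t_eq
  w := h.w_eq

omit [Fintype W] in
theorem rel_GU_GV (f : (Fin k → Sym W) → W) (e : Fin k → Eqn) (τ : Fin k → Ty) :
    Rel τ (vv e τ) (GU f e) (GV f fun i => (τ i).vb (e i)) := by
  intro N
  obtain ⟨n, rfl⟩ := homE.surjective N
  have h1 : homE n ∘ₗ piL τ = homE fun i => (τ i).lift (n i) := by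
    refine LinearMap.ext fun t => ?_
    rw [LinearMap.comp_apply, homE_apply, homE_apply, hom_lift]
  rw [h1]
  unfold GU GV
  rw [Equiv.symm_apply_apply, Equiv.symm_apply_apply, tabU_lift_hom, homE_apply]

omit [Fintype W] [DecidableEq W] in
theorem hom_lift_eq (τ : Fin k → Ty) (n : Fin k → W × W) :
    hom (fun i => (τ i).lift (n i)) = hom n ∘ₗ piL τ := by
  refine LinearMap.ext fun t => ?_
  rw [LinearMap.comp_apply, hom_lift]

/-- The test function. -/
noncomputable def Test (θ : ℝ) (G : ((Fin k → F × F) →ₗ[F] W) → W)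
    (S : ((Fin k → F × F) →ₗ[F] W) → Option (Tup (Fin k → F × F) W)) (n : Fin k → W × W) : ℝ :=
  match S (hom n) with
  | some s => tst B θ G s (hom n)
  | none => 0

omit [Fintype W] [DecidableEq W] in
theorem Test_some {θ : ℝ} {G : ((Fin k → F × F) →ₗ[F] W) → W}
    {S : ((Fin k → F × F) →ₗ[F] W) → Option (Tup (Fin k → F × F) W)} {n : Fin k → W × W}
    {s : Tup (Fin k → F × F) W} (h : S (hom n) = some s) :
    Test B θ G S n = tst B θ G s (hom n) := by
  unfold Test
  rw [h]

omit [Fintype W] [DecidableEq W] in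
theorem Test_none {θ : ℝ} {G : ((Fin k → F × F) →ₗ[F] W) → W}
    {S : ((Fin k → F × F) →ₗ[F] W) → Option (Tup (Fin k → F × F) W)} {n : Fin k → W × W}
    (h : S (hom n) = none) : Test B θ G S n = 0 := by
  unfold Test
  rw [h]

variable {θ : ℝ} (hθ : 0 < θ) {j : ℕ} (G : ((Fin k → F × F) →ₗ[F] W) → W)
  (S : ((Fin k → F × F) →ₗ[F] W) → Option (Tup (Fin k → F × F) W))
  (hS : ∀ M N, M - N ∈ zoom B (⊥ : Submodule F (Fin k → F × F)) → S M = S N)
  (hC : ∀ N s, S N = some s → s ∈ Cand θ (θ ^ 2 / (32 * 2 ^ (2 ^ j + j))) j G B N)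

omit [Fintype W] [DecidableEq W] in
include hS in
theorem S_congr {n n₀ : Fin k → W × W} (h : Cgr B n n₀) : S (hom n) = S (hom n₀) :=
  hS _ _ ((hom_sub_mem B _ _).2 h)

omit [Fintype W] [DecidableEq W] in
theorem cgr_lift (τ : Fin k → Ty) {n n₀ : Fin k → W × W} (h : Cgr B n n₀) :
    Cgr B (fun i => (τ i).lift (n i)) fun i => (τ i).lift (n₀ i) := by
  intro i
  have h1 := h i
  dsimp only
  cases τ i
  · exact h1
  · simpa [Ty.lift] using h1.1
  · simpa [Ty.lift] using h1.1
  · simpa [Ty.lift] using h1.1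
  · simp [Ty.lift]

omit [DecidableEq W] in
include hθ hS hC in
/-- The average of the test function is large. -/
theorem le_sum_Test : θ / 4 * ∑ n : Fin k → W × W, ind (S (hom n) ≠ none) ≤
    ∑ n : Fin k → W × W, Test B θ G S n := by
  have h1 := sum_sum_cgr B (Test B θ G S)
  have hc := cc_pos (k := k) B
  have h2 : ∀ n₀ : Fin k → W × W, cc k B * (θ / 4 * ind (S (hom n₀) ≠ none)) ≤
      ∑ n : Fin k → W × W, ind (Cgr B n n₀) * Test B θ G S n := by
    intro n₀
    rcases h : S (hom n₀) with _ | s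
    · have h3 : ∀ n : Fin k → W × W, ind (Cgr B n n₀) * Test B θ G S n = 0 := by
        intro n
        by_cases hn : Cgr B n n₀
        · rw [Test_none B (by rw [S_congr B S hS hn, h]), mul_zero]
        · rw [ind_false hn, zero_mul]
      rw [Finset.sum_congr rfl fun n _ => h3 n, ind_false (by simp)]
      simp
    · have h3 : ∀ n : Fin k → W × W, ind (Cgr B n n₀) * Test B θ G S n =
          ind (Cgr B n n₀) * tst B θ G s (hom n ∘ₗ LinearMap.id) := by
        intro n
        by_cases hn : Cgr B n n₀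
        · rw [Test_some B (by rw [S_congr B S hS hn, h]), LinearMap.comp_id]
        · rw [ind_false hn, zero_mul, zero_mul]
      rw [Finset.sum_congr rfl fun n _ => h3 n, sum_tst, ind_true (by simp), mul_one]
      refine mul_le_mul_of_nonneg_left ?_ hc.le
      obtain ⟨hj, hp, hsub⟩ := hC _ _ h
      have h4 : ∑ x : Subs s, dd B LinearMap.id G x.tup n₀ ≤ θ ^ 2 / 32 := by
        have h5 : ∀ x : Subs s, dd B LinearMap.id G x.tup n₀ ≤
            θ ^ 2 / (32 * 2 ^ (2 ^ j + j)) := by
          intro x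
          rw [dd_id]
          exact (hsub x.1.1 x.1.2.1 x.1.2.2 x.2).le
        refine (Finset.sum_le_sum fun x _ => h5 x).trans ?_
        rw [Finset.sum_const, Finset.card_univ, nsmul_eq_mul]
        have h6 : (Fintype.card (Subs s) : ℝ) ≤ 2 ^ (2 ^ j + j) := by
          exact_mod_cast card_subs s hj
        calc (Fintype.card (Subs s) : ℝ) * (θ ^ 2 / (32 * 2 ^ (2 ^ j + j)))
            ≤ 2 ^ (2 ^ j + j) * (θ ^ 2 / (32 * 2 ^ (2 ^ j + j))) :=
              mul_le_mul_of_nonneg_right h6 (by positivity)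
          _ = θ ^ 2 / 32 := by field_simp
      have h7 : 8 / θ * (∑ x : Subs s, dd B LinearMap.id G x.tup n₀) ≤ θ / 4 := by
        calc 8 / θ * (∑ x : Subs s, dd B LinearMap.id G x.tup n₀) ≤ 8 / θ * (θ ^ 2 / 32) :=
              mul_le_mul_of_nonneg_left h4 (by positivity)
          _ = θ / 4 := by field_simp; ring
      rw [dd_id]
      linarith
  have h3 := Finset.sum_le_sum fun n₀ (_ : n₀ ∈ (univ : Finset (Fin k → W × W))) => h2 n₀
  rw [h1, ← Finset.mul_sum, ← Finset.mul_sum] at h3
  exact le_of_mul_le_mul_left h3 hc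

/-- The projection is not injective on the points of the selected tuple. -/
def NonInj (τ : Fin k → Ty) (m : Fin k → W × W) : Prop :=
  ∃ s, S (hom m) = some s ∧ ∃ a ∈ s.A, a ≠ 0 ∧ piL τ a = 0

/-- The selected tuple becomes a candidate. -/
def Succ' (θ : ℝ) (j : ℕ) (GW : ((Fin k → F × F) →ₗ[F] W) → W) (v : Fin k → F × F)
    (τ : Fin k → Ty) (n : Fin k → W × W) : Prop :=
  ∃ s sV, S (hom fun i => (τ i).lift (n i)) = some s ∧ IsPush (piL τ) v s sV ∧
    sV ∈ Cand (θ / 2) (θ / 8) j GW B (hom fun i => (τ i).vis (n i))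

omit [DecidableEq W] in
include hθ hS hC in
/-- The average of the test function along the lift is at most the probability of success. -/
theorem sum_Test_lift_le (τ : Fin k → Ty) (v : Fin k → F × F)
    (GW : ((Fin k → F × F) →ₗ[F] W) → W) (hG : Rel τ v G GW) {r : ℕ}
    (hr : Fintype.card W ≤ r) :
    ∑ n : Fin k → W × W, Test B θ G S (fun i => (τ i).lift (n i)) ≤
      ∑ n : Fin k → W × W, ind (Succ' B S θ j GW v τ n) +
      (r : ℝ) ^ j * ∑ n : Fin k → W × W, ind (NonInj S τ fun i => (τ i).lift (n i)) := by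
  have h1 := sum_sum_cgr B fun n : Fin k → W × W => Test B θ G S (fun i => (τ i).lift (n i))
  have hc := cc_pos (k := k) B
  have hB1 : 1 ≤ Nat.card B := Nat.card_pos
  have hBr : Nat.card B ≤ r := by
    refine le_trans ?_ hr
    rw [← Nat.card_eq_fintype_card]
    exact Nat.card_le_card_of_injective _ B.injective_subtype
  have hr0 : (0 : ℝ) ≤ (r : ℝ) ^ j := by positivity
  have h2 : ∀ n₀ : Fin k → W × W,
      ∑ n : Fin k → W × W, ind (Cgr B n n₀) * Test B θ G S (fun i => (τ i).lift (n i)) ≤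
      cc k B * (ind (Succ' B S θ j GW v τ n₀) +
        (r : ℝ) ^ j * ind (NonInj S τ fun i => (τ i).lift (n₀ i))) := by
    intro n₀
    have hpos : 0 ≤ cc k B * (ind (Succ' B S θ j GW v τ n₀) +
        (r : ℝ) ^ j * ind (NonInj S τ fun i => (τ i).lift (n₀ i))) :=
      mul_nonneg hc.le (add_nonneg (ind_nonneg _) (mul_nonneg hr0 (ind_nonneg _)))
    rcases h : S (hom fun i => (τ i).lift (n₀ i)) with _ | s
    · have h3 : ∀ n : Fin k → W × W,
          ind (Cgr B n n₀) * Test B θ G S (fun i => (τ i).lift (n i)) = 0 := by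
        intro n
        by_cases hn : Cgr B n n₀
        · rw [Test_none B (by rw [S_congr B S hS (cgr_lift B τ hn), h]), mul_zero]
        · rw [ind_false hn, zero_mul]
      rw [Finset.sum_congr rfl fun n _ => h3 n, Finset.sum_const_zero]
      exact hpos
    · obtain ⟨hj, hp, hsub⟩ := hC _ _ h
      have h3 : ∀ n : Fin k → W × W,
          ind (Cgr B n n₀) * Test B θ G S (fun i => (τ i).lift (n i)) =
          ind (Cgr B n n₀) * tst B θ G s (hom n ∘ₗ piL τ) := by
        intro n
        by_cases hn : Cgr B n n₀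
        · rw [Test_some B (by rw [S_congr B S hS (cgr_lift B τ hn), h]), hom_lift_eq]
        · rw [ind_false hn, zero_mul, zero_mul]
      rw [Finset.sum_congr rfl fun n _ => h3 n]
      by_cases hinj : ∀ a ∈ s.A, piL τ a = 0 → a = 0
      · rw [sum_tst]
        refine mul_le_mul_of_nonneg_left ?_ hc.le
        have h4 : dd B (piL τ) G s n₀ - 8 / θ * (∑ x : Subs s, dd B (piL τ) G x.tup n₀) -
            θ / 2 ≤ ind (Succ' B S θ j GW v τ n₀) := by
          have hrs : Function.Injective (rs (piL τ) s) := by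
            rw [← LinearMap.ker_eq_bot, LinearMap.ker_eq_bot']
            intro a ha
            exact Subtype.ext (hinj a a.2 ha)
          obtain ⟨sV, hsV⟩ := exists_push (piL τ) v s hrs
          have hcorr := corr_of_isPush hsV
          have hvis : Cgr B (fun i => (τ i).vis (n₀ i))
              fun i => (τ i).vis ((fun i => (τ i).vis (n₀ i)) i) := by
            have : ∀ i, (τ i).vis ((τ i).vis (n₀ i)) = (τ i).vis (n₀ i) := by
              intro i
              cases τ i <;> rfl
            simp only [this]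
            exact Cgr.refl B _
          have hpV : sV.p GW B (hom fun i => (τ i).vis (n₀ i)) = dd B (piL τ) G s n₀ := by
            rw [hcorr.p_eq B hinj hG, dd_piL]
            exact (dn_congr B s G hvis).symm
          have hpU : ∀ x : Subs s, 0 ≤ dd B (piL τ) G x.tup n₀ := fun x => dd_nonneg _ _ _ _ _
          have hsum : 0 ≤ ∑ x : Subs s, dd B (piL τ) G x.tup n₀ :=
            Finset.sum_nonneg fun x _ => hpU x
          have h8 : 0 < 8 / θ := by positivity
          have hle1 : dd B (piL τ) G s n₀ ≤ 1 := by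
            rw [← hpV]
            exact p_le_one _ _ _ _
          by_cases hsucc : sV ∈ Cand (θ / 2) (θ / 8) j GW B (hom fun i => (τ i).vis (n₀ i))
          · rw [ind_true ⟨s, sV, h, hsV, hsucc⟩]
            have := mul_nonneg h8.le hsum
            linarith
          · refine le_trans ?_ (ind_nonneg _)
            by_cases h9 : dd B (piL τ) G s n₀ < θ / 2
            · have := mul_nonneg h8.le hsum
              linarith
            · have hfin : Module.finrank F sV.A = j := by
                rw [← hj, hcorr.A]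
                have h2 : Function.Injective ((piL τ).domRestrict s.A) := hrs
                rw [← LinearMap.range_domRestrict, LinearMap.finrank_range_of_inj h2]
              have h10 : ∃ x : Subs s, θ / 8 ≤ dd B (piL τ) G x.tup n₀ := by
                by_contra hcon
                push Not at hcon
                refine hsucc ⟨hfin, by rw [hpV]; exact not_lt.1 h9, ?_⟩
                intro A'' hA hne a''
                obtain ⟨A', h11, a, h12, h13⟩ := hcorr.sub A'' hA hne a''
                have hinj' : ∀ a' ∈ (s.sub A' h11 a).A, piL τ a' = 0 → a' = 0 :=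
                  fun a' ha' => hinj a' (h11 ha')
                rw [h13.p_eq B hinj' hG, ← dn_congr B _ G hvis, ← dd_piL]
                exact hcon (⟨⟨A', h11, h12⟩, a⟩ : Subs s)
              obtain ⟨x, hx⟩ := h10
              have h14 : θ / 8 ≤ ∑ x : Subs s, dd B (piL τ) G x.tup n₀ :=
                hx.trans (Finset.single_le_sum (f := fun x : Subs s => dd B (piL τ) G x.tup n₀)
                  (fun x _ => hpU x) (mem_univ x))
              have h15 := mul_le_mul_of_nonneg_left h14 h8.le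
              have h16 : 8 / θ * (θ / 8) = 1 := by field_simp
              linarith
        have := mul_nonneg hr0 (ind_nonneg (NonInj S τ fun i => (τ i).lift (n₀ i)))
        linarith
      · push Not at hinj
        obtain ⟨a, ha, ha0, ha1⟩ := hinj
        rw [ind_true (P := NonInj S τ fun i => (τ i).lift (n₀ i)) ⟨s, h, a, ha, ha1, ha0⟩]
        have h4 : ∀ n : Fin k → W × W, ind (Cgr B n n₀) * tst B θ G s (hom n ∘ₗ piL τ) ≤
            ind (Cgr B n n₀) * (r : ℝ) ^ j := by
          intro n
          refine mul_le_mul_of_nonneg_left ((tst_le B hθ G s _).trans ?_) (ind_nonneg _)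
          rw [hj]
          exact_mod_cast Nat.pow_le_pow_left hBr j
        refine (Finset.sum_le_sum fun n _ => h4 n).trans ?_
        rw [← Finset.sum_mul, sum_cgr]
        refine mul_le_mul_of_nonneg_left ?_ hc.le
        have := ind_nonneg (Succ' B S θ j GW v τ n₀)
        linarith
  have h3 := Finset.sum_le_sum fun n₀ (_ : n₀ ∈ (univ : Finset (Fin k → W × W))) => h2 n₀
  rw [h1, ← Finset.mul_sum, Finset.sum_add_distrib, ← Finset.mul_sum] at h3
  exact le_of_mul_le_mul_left h3 hc

/-- A nonzero point is mapped to zero only if some block is not kept. -/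
theorem exists_ne_full {a : Fin k → F × F} (ha : a ≠ 0) : ∃ i, ∀ τ : Fin k → Ty, piL τ a = 0 →
    τ i ≠ .full := by
  obtain ⟨i, hi⟩ : ∃ i, a i ≠ 0 := by
    by_contra h
    push Not at h
    exact ha (funext h)
  refine ⟨i, fun τ h1 h2 => hi ?_⟩
  have h3 := congrFun h1 i
  rw [piL_apply, h2] at h3
  exact h3

omit [DecidableEq W] in
include hC in
/-- The projection is rarely not injective. -/
theorem sum_NonInj_le {β : ℝ} (h0 : 0 < β) (h1 : β < 1) {r : ℕ} (hr : Fintype.card W ≤ r) :
    ∑ τ : Fin k → Ty, wts β τ * ∑ n : Fin k → W × W, ind (NonInj S τ fun i => (τ i).lift (n i)) ≤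
      2 ^ j * (r : ℝ) ^ 2 * (β / (1 - β)) * Fintype.card (Fin k → W × W) := by
  classical
  have hwt : ∀ τ : Fin k → Ty, 0 ≤ wts β τ := fun τ =>
    Finset.prod_nonneg fun i _ => wt_nonneg h0.le h1.le _
  have hb : 0 < 1 - β := by linarith
  -- rewrite as a sum over the lifted coefficients
  have h2 : ∀ τ : Fin k → Ty,
      ∑ n : Fin k → W × W, ind (NonInj S τ fun i => (τ i).lift (n i)) =
      ∑ m : Fin k → W × W, (#{n : Fin k → W × W | (fun i => (τ i).lift (n i)) = m} : ℝ) *
        ind (NonInj S τ m) := by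
    intro τ
    rw [← Finset.sum_fiberwise_of_maps_to (s := univ) (t := univ)
      (g := fun n : Fin k → W × W => fun i => (τ i).lift (n i)) fun _ _ => mem_univ _]
    refine Finset.sum_congr rfl fun m _ => ?_
    rw [Finset.sum_congr rfl (g := fun _ => ind (NonInj S τ m))]
    · rw [Finset.sum_const, nsmul_eq_mul]
    · intro n hn
      rw [(Finset.mem_filter.1 hn).2]
  simp_rw [h2, Finset.mul_sum]
  rw [Finset.sum_comm]
  have h3 : ∀ m : Fin k → W × W, ∑ τ : Fin k → Ty, wts β τ *
      ((#{n : Fin k → W × W | (fun i => (τ i).lift (n i)) = m} : ℝ) * ind (NonInj S τ m)) ≤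
      2 ^ j * ((r : ℝ) ^ 2 * (β / (1 - β))) * H β m := by
    intro m
    have hH : 0 ≤ H β m := by
      rw [H_eq]
      exact Finset.prod_nonneg fun i _ => dens_nonneg h0.le h1.le _
    rcases h : S (hom m) with _ | s
    · have h4 : ∀ τ : Fin k → Ty, ind (NonInj S τ m) = 0 := by
        intro τ
        refine ind_false ?_
        rintro ⟨s, hs, -⟩
        rw [h] at hs
        cases hs
      simp_rw [h4, mul_zero]
      rw [Finset.sum_const_zero]
      positivity
    · obtain ⟨hj, -, -⟩ := hC _ _ h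
      have : Fintype s.A := Fintype.ofFinite _
      have h4 : ∀ a : s.A, ∃ i : Option (Fin k), ∀ τ : Fin k → Ty,
          (a : Fin k → F × F) ≠ 0 → piL τ a = 0 → ∃ i', i = some i' ∧ τ i' ≠ .full := by
        intro a
        by_cases ha : (a : Fin k → F × F) = 0
        · exact ⟨none, fun τ h5 => absurd ha h5⟩
        · obtain ⟨i, hi⟩ := exists_ne_full ha
          exact ⟨some i, fun τ _ h6 => ⟨i, rfl, hi τ h6⟩⟩
      choose i hi using h4
      have h5 : ∀ τ : Fin k → Ty, ind (NonInj S τ m) ≤
          ∑ a : s.A, ind (∃ i', i a = some i' ∧ τ i' ≠ .full) := by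
        intro τ
        by_cases h6 : NonInj S τ m
        · obtain ⟨s', hs', a, ha, ha0, ha1⟩ := h6
          rw [h] at hs'
          cases hs'
          refine (ind_le_one _).trans ?_
          rw [← ind_true (hi ⟨a, ha⟩ τ ha0 ha1)]
          exact Finset.single_le_sum
            (f := fun a : s.A => ind (∃ i', i a = some i' ∧ τ i' ≠ .full))
            (fun a _ => ind_nonneg _) (mem_univ _)
        · rw [ind_false h6]
          exact Finset.sum_nonneg fun a _ => ind_nonneg _
      have h6 : ∀ a : s.A, ∑ τ : Fin k → Ty, wts β τ *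
          ((#{n : Fin k → W × W | (fun i => (τ i).lift (n i)) = m} : ℝ) *
            ind (∃ i', i a = some i' ∧ τ i' ≠ .full)) ≤
          (r : ℝ) ^ 2 * (β / (1 - β)) * H β m := by
        intro a
        rcases hia : i a with _ | i'
        · have h7 : ∀ τ : Fin k → Ty,
              ind (∃ i', (none : Option (Fin k)) = some i' ∧ τ i' ≠ .full) = 0 := by
            intro τ
            refine ind_false ?_
            rintro ⟨i', hi', -⟩
            cases hi'
          simp_rw [h7, mul_zero]
          rw [Finset.sum_const_zero]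
          positivity
        · have h7 : ∀ τ : Fin k → Ty, wts β τ *
              ((#{n : Fin k → W × W | (fun i => (τ i).lift (n i)) = m} : ℝ) *
                ind (∃ i'', some i' = some i'' ∧ τ i'' ≠ .full)) =
              if τ i' = .full then 0 else wts β τ *
                #{n : Fin k → W × W | (fun i => (τ i).lift (n i)) = m} := by
            intro τ
            by_cases h8 : τ i' = .full
            · rw [if_pos h8, ind_false, mul_zero, mul_zero]
              rintro ⟨i'', h9, h10⟩
              cases h9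
              exact h10 h8
            · rw [if_neg h8, ind_true ⟨i', rfl, h8⟩, mul_one]
          rw [Finset.sum_congr rfl fun τ _ => h7 τ]
          refine (posterior W k β h0.le h1 m i').trans ?_
          change β * (Fintype.card W : ℝ) ^ 2 / (1 - β) * H β m ≤ _
          refine mul_le_mul_of_nonneg_right ?_ hH
          have h8 : (Fintype.card W : ℝ) ^ 2 ≤ (r : ℝ) ^ 2 := by
            exact_mod_cast Nat.pow_le_pow_left hr 2
          calc β * (Fintype.card W : ℝ) ^ 2 / (1 - β) = (Fintype.card W : ℝ) ^ 2 * (β / (1 - β)) := by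
                ring
            _ ≤ (r : ℝ) ^ 2 * (β / (1 - β)) := mul_le_mul_of_nonneg_right h8 (by positivity)
      calc ∑ τ : Fin k → Ty, wts β τ *
            ((#{n : Fin k → W × W | (fun i => (τ i).lift (n i)) = m} : ℝ) * ind (NonInj S τ m))
          ≤ ∑ τ : Fin k → Ty, ∑ a : s.A, wts β τ *
            ((#{n : Fin k → W × W | (fun i => (τ i).lift (n i)) = m} : ℝ) *
              ind (∃ i', i a = some i' ∧ τ i' ≠ .full)) := by
            refine Finset.sum_le_sum fun τ _ => ?_
            rw [← Finset.mul_sum, ← Finset.mul_sum]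
            exact mul_le_mul_of_nonneg_left
              (mul_le_mul_of_nonneg_left (h5 τ) (Nat.cast_nonneg _)) (hwt τ)
        _ = ∑ a : s.A, ∑ τ : Fin k → Ty, wts β τ *
            ((#{n : Fin k → W × W | (fun i => (τ i).lift (n i)) = m} : ℝ) *
              ind (∃ i', i a = some i' ∧ τ i' ≠ .full)) := Finset.sum_comm
        _ ≤ ∑ _a : s.A, (r : ℝ) ^ 2 * (β / (1 - β)) * H β m :=
            Finset.sum_le_sum fun a _ => h6 a
        _ = 2 ^ j * ((r : ℝ) ^ 2 * (β / (1 - β))) * H β m := by
            have h9 : Fintype.card s.A = 2 ^ j := by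
              rw [← Nat.card_eq_fintype_card, card_module, hj]
            rw [Finset.sum_const, Finset.card_univ, nsmul_eq_mul, h9]
            push_cast
            ring
  refine (Finset.sum_le_sum fun m _ => h3 m).trans (le_of_eq ?_)
  rw [← Finset.mul_sum, sum_H]
  ring

end main

/-- The statement about one table of the first prover. -/
theorem oneTable : OneTable := by
  intro r j θ hθ
  set M₀ : ℝ := 8 / θ * (2 ^ (2 ^ j + j) * (r : ℝ) ^ j) + θ / 2 with hM₀
  have hM₀0 : 0 ≤ M₀ := by rw [hM₀]; positivity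
  refine ⟨(r : ℝ) ^ j + M₀ + (r : ℝ) ^ j * (2 ^ j * (r : ℝ) ^ 2), by positivity, ?_⟩
  intro W _ _ _ _ hr k β h0 h1 f e B S hS hC
  have hb : 0 < 1 - β := by linarith
  set c : ℝ := (Fintype.card (Fin k → W × W) : ℝ) with hc
  have hc0 : 0 < c := by
    rw [hc]
    exact_mod_cast Fintype.card_pos
  have hBr : Nat.card B ≤ r := by
    refine le_trans ?_ hr
    rw [← Nat.card_eq_fintype_card]
    exact Nat.card_le_card_of_injective _ B.injective_subtype
  set E := √(Real.exp (k * β ^ 2 * (r : ℝ) ^ 2) - 1) with hE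
  -- the covering property for the test function
  have hT0 : ∀ n, 0 ≤ Test B θ (GU f e) S n + M₀ := by
    intro n
    rcases h : S (hom n) with _ | s
    · rw [Test_none B h, zero_add]
      exact hM₀0
    · rw [Test_some B h]
      have := le_tst B hθ (GU f e) s (hom n) (hC _ _ h).1 hr
      linarith
  have hT1 : ∀ n, Test B θ (GU f e) S n + M₀ ≤ (r : ℝ) ^ j + M₀ := by
    intro n
    have hrj : (0 : ℝ) ≤ (r : ℝ) ^ j := by positivity
    rcases h : S (hom n) with _ | s
    · rw [Test_none B h]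
      linarith
    · rw [Test_some B h]
      have h2 := tst_le B hθ (GU f e) s (hom n)
      rw [(hC _ _ h).1] at h2
      have h3 : (Nat.card B : ℝ) ^ j ≤ (r : ℝ) ^ j := by
        exact_mod_cast Nat.pow_le_pow_left hBr j
      linarith
  have hcov := covering W k β h0.le h1.le ((r : ℝ) ^ j + M₀)
    (fun n => Test B θ (GU f e) S n + M₀) hT0 hT1
  have hwt : ∀ τ : Fin k → Ty, 0 ≤ wts β τ := fun τ =>
    Finset.prod_nonneg fun i _ => wt_nonneg h0.le h1.le _
  have hwt1 : ∑ τ : Fin k → Ty, wts β τ = 1 := by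
    unfold wts
    have := Finset.prod_univ_sum (fun _ : Fin k => (univ : Finset Ty)) (fun _ τ => τ.wt β)
    rw [Fintype.piFinset_univ] at this
    rw [← this]
    simp [sum_wt]
  have hE1 : √(Real.exp (k * β ^ 2 * (Fintype.card W : ℝ) ^ 2) - 1) ≤ E := by
    refine Real.sqrt_le_sqrt (sub_le_sub_right (Real.exp_le_exp.2 ?_) _)
    refine mul_le_mul_of_nonneg_left ?_ (by positivity)
    exact_mod_cast Nat.pow_le_pow_left hr 2
  have hcov2 : (∑ n : Fin k → W × W, Test B θ (GU f e) S n) / c ≤
      (∑ τ : Fin k → Ty, wts β τ *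
        ((∑ n : Fin k → W × W, Test B θ (GU f e) S fun i => (τ i).lift (n i)) / c)) +
        ((r : ℝ) ^ j + M₀) * E := by
    have h2 := (abs_le.1 hcov).1
    have h3 : ∀ g : (Fin k → W × W) → ℝ, (∑ n : Fin k → W × W, (g n + M₀)) / c =
        (∑ n : Fin k → W × W, g n) / c + M₀ := by
      intro g
      rw [Finset.sum_add_distrib, Finset.sum_const, Finset.card_univ, nsmul_eq_mul, ← hc]
      field_simp
    rw [← hc, h3] at h2
    have h4 : ∑ τ : Fin k → Ty, wts β τ * ((∑ n : Fin k → W × W,
        (Test B θ (GU f e) S (fun i => (τ i).lift (n i)) + M₀)) / c) =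
        (∑ τ : Fin k → Ty, wts β τ *
        ((∑ n : Fin k → W × W, Test B θ (GU f e) S fun i => (τ i).lift (n i)) / c)) + M₀ := by
      simp_rw [h3, mul_add]
      rw [Finset.sum_add_distrib, ← Finset.sum_mul, hwt1, one_mul]
    rw [h4] at h2
    have h5 : ((r : ℝ) ^ j + M₀) * √(Real.exp (k * β ^ 2 * (Fintype.card W : ℝ) ^ 2) - 1) ≤
        ((r : ℝ) ^ j + M₀) * E := mul_le_mul_of_nonneg_left hE1 (by positivity)
    linarith
  -- the upper bound
  have hup : (∑ τ : Fin k → Ty, wts β τ *
        ((∑ n : Fin k → W × W, Test B θ (GU f e) S fun i => (τ i).lift (n i)) / c)) ≤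
      (∑ τ : Fin k → Ty, wts β τ * ((Nat.card {n : Fin k → W × W |
        Succ' B S θ j (GV f fun i => (τ i).vb (e i)) (vv e τ) τ n} : ℝ) / c)) +
        (r : ℝ) ^ j * (2 ^ j * (r : ℝ) ^ 2 * (β / (1 - β))) := by
    have h2 : ∀ τ : Fin k → Ty, wts β τ *
        ((∑ n : Fin k → W × W, Test B θ (GU f e) S fun i => (τ i).lift (n i)) / c) ≤
        wts β τ * ((Nat.card {n : Fin k → W × W |
        Succ' B S θ j (GV f fun i => (τ i).vb (e i)) (vv e τ) τ n} : ℝ) / c) +
        (r : ℝ) ^ j * ((wts β τ *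
          ∑ n : Fin k → W × W, ind (NonInj S τ fun i => (τ i).lift (n i))) / c) := by
      intro τ
      have h3 := sum_Test_lift_le B hθ (GU f e) S hS hC τ (vv e τ)
        (GV f fun i => (τ i).vb (e i)) (rel_GU_GV f e τ) hr
      rw [natCard_eq_sum]
      calc wts β τ *
          ((∑ n : Fin k → W × W, Test B θ (GU f e) S fun i => (τ i).lift (n i)) / c)
          ≤ wts β τ * ((∑ n : Fin k → W × W,
              ind (Succ' B S θ j (GV f fun i => (τ i).vb (e i)) (vv e τ) τ n) +
              (r : ℝ) ^ j * ∑ n : Fin k → W × W,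
                ind (NonInj S τ fun i => (τ i).lift (n i))) / c) :=
            mul_le_mul_of_nonneg_left (div_le_div_of_nonneg_right h3 hc0.le) (hwt τ)
        _ = _ := by ring
    refine (Finset.sum_le_sum fun τ _ => h2 τ).trans ?_
    rw [Finset.sum_add_distrib, ← Finset.mul_sum, ← Finset.sum_div]
    have h4 := sum_NonInj_le B (GU f e) S hC h0 h1 hr
    rw [← hc] at h4
    have h5 : (∑ τ : Fin k → Ty, wts β τ *
        ∑ n : Fin k → W × W, ind (NonInj S τ fun i => (τ i).lift (n i))) / c ≤
        2 ^ j * (r : ℝ) ^ 2 * (β / (1 - β)) := by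
      rw [div_le_iff₀ hc0]
      exact h4
    have h6 := mul_le_mul_of_nonneg_left h5 (by positivity : (0 : ℝ) ≤ (r : ℝ) ^ j)
    linarith
  -- the lower bound
  have hlow := div_le_div_of_nonneg_right (le_sum_Test B hθ (GU f e) S hS hC) hc0.le
  rw [← natCard_eq_sum, mul_div_assoc] at hlow
  have hE0 : 0 ≤ E := Real.sqrt_nonneg _
  have hbb : 0 ≤ β / (1 - β) := by positivity
  have hrj : (0 : ℝ) ≤ (r : ℝ) ^ j := by positivity
  have hx : 0 ≤ (r : ℝ) ^ j * (2 ^ j * (r : ℝ) ^ 2) := by positivity
  have e1 : ((r : ℝ) ^ j + M₀ + (r : ℝ) ^ j * (2 ^ j * (r : ℝ) ^ 2)) * (E + β / (1 - β)) =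
      ((r : ℝ) ^ j + M₀) * E + (r : ℝ) ^ j * (2 ^ j * (r : ℝ) ^ 2 * (β / (1 - β))) +
      (((r : ℝ) ^ j + M₀) * (β / (1 - β)) + (r : ℝ) ^ j * (2 ^ j * (r : ℝ) ^ 2) * E) := by ring
  have e2 : 0 ≤ ((r : ℝ) ^ j + M₀) * (β / (1 - β)) +
      (r : ℝ) ^ j * (2 ^ j * (r : ℝ) ^ 2) * E := by positivity
  change _ - _ ≤ ∑ τ : Fin k → Ty, wts β τ * ((Nat.card {n : Fin k → W × W |
        Succ' B S θ j (GV f fun i => (τ i).vb (e i)) (vv e τ) τ n} : ℝ) / c)
  rw [e1]
  linarith

end Vale.Agent.P325.H914
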