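import Vale.Agent.P325.Star.Blocks

/-!
# Transfer between the tables of the two provers
-/

namespace Vale.Agent.P325.H914

open Finset Vale.Agent.P325.Star

section sym

variable {W : Type} [AddCommGroup W] [Module F W] [DecidableEq W]

omit [Module F W] in
theorem symF_lift (e : Eqn) (τ : Ty) (n : W × W) : symF e (τ.lift n) = symV (τ.vb e) n := by
  cases τ
  · rfl
  · by_cases h : n.1 = 0 <;> simp [symF, symV, Ty.lift, Ty.vb, h]
  · by_cases h : n.1 = 0 <;> simp [symF, symV, Ty.lift, Ty.vb, h]
  · by_cases h : n.1 = 0 <;> simp [symF, symV, Ty.lift, Ty.vb, h]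
  · simp [symF, symV, Ty.lift, Ty.vb]

/-- The correction of the constant for a block: the third variable is `t.1 + t.2 + e.rhs`. -/
def cor (e : Eqn) (τ : Ty) : F := if τ = .s3 then e.rhs else 0

theorem shF_lift (e : Eqn) (τ : Ty) (n : W × W) :
    shF e (τ.lift n) = shV (τ.vb e) n + cor e τ • n.1 := by
  cases τ
  · by_cases h : n.1 = n.2 <;> simp [shF, shV, Ty.lift, Ty.vb, cor, h]
  · by_cases h : n.1 = 0 <;> simp [shF, shV, Ty.lift, Ty.vb, cor, h]
  · by_cases h : n.1 = 0
    · simp [shF, shV, Ty.lift, Ty.vb, cor, h]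
    · simp [shF, shV, Ty.lift, Ty.vb, cor, Ne.symm h]
  · simp [shF, shV, Ty.lift, Ty.vb, cor]
  · simp [shF, shV, Ty.lift, Ty.vb, cor]

variable {k : ℕ} (f : (Fin k → Sym W) → W)

/-- The table of the first prover at lifted coefficients. -/
theorem tabU_lift (e : Fin k → Eqn) (τ : Fin k → Ty) (n : Fin k → W × W) :
    tabU f e (fun i => (τ i).lift (n i)) =
      tabV f (fun i => (τ i).vb (e i)) n + ∑ i, cor (e i) (τ i) • (n i).1 := by
  unfold tabU tabV
  simp_rw [symF_lift, shF_lift]
  rw [Finset.sum_add_distrib, add_assoc]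

omit [Module F W] in
theorem symV_vis (e : Eqn) (τ : Ty) (n : W × W) :
    symV (τ.vb e) (τ.vis n) = symV (τ.vb e) n := by
  cases τ <;> by_cases h : n.1 = 0 <;> simp [symV, Ty.vis, Ty.vb, h]

theorem shV_vis (e : Eqn) (τ : Ty) (n : W × W) : shV (τ.vb e) (τ.vis n) = shV (τ.vb e) n := by
  cases τ <;> rfl

/-- The table of the second prover depends on the visible part only. -/
theorem tabV_vis (e : Fin k → Eqn) (τ : Fin k → Ty) (n : Fin k → W × W) :
    tabV f (fun i => (τ i).vb (e i)) (fun i => (τ i).vis (n i)) =
      tabV f (fun i => (τ i).vb (e i)) n := by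
  unfold tabV
  simp_rw [symV_vis, shV_vis]

end sym

section coords

variable {k : ℕ}

/-- The projection of the assignments of a block: the first prover's point seen by the second. -/
def pr (τ : Ty) (t : F × F) : F × F :=
  match τ with
  | .full => t
  | .s1 => (t.1, 0)
  | .s2 => (t.2, 0)
  | .s3 => (t.1 + t.2, 0)
  | .dr => (0, 0)

/-- The projection as a linear map. -/
def prL (τ : Ty) : (F × F) →ₗ[F] (F × F) where
  toFun := pr τ
  map_add' s t := by
    cases τ
    · rfl
    · simp [pr]
    · simp [pr]
    · simp only [pr, Prod.fst_add, Prod.snd_add, Prod.mk_add_mk, add_zero]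
      congr 1
      ring
    · simp [pr]
  map_smul' c t := by
    cases τ
    · rfl
    · simp [pr]
    · simp [pr]
    · simp [pr, mul_add]
    · simp [pr]

/-- The projection of tuples. -/
def piL (τ : Fin k → Ty) : (Fin k → F × F) →ₗ[F] (Fin k → F × F) where
  toFun t := fun i => pr (τ i) (t i)
  map_add' s t := by
    funext i
    exact (prL (τ i)).map_add (s i) (t i)
  map_smul' c t := by
    funext i
    exact (prL (τ i)).map_smul c (t i)

@[simp] theorem piL_apply (τ : Fin k → Ty) (t : Fin k → F × F) (i : Fin k) :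
    piL τ t i = pr (τ i) (t i) := rfl

/-- The shift of the points. -/
def vv (e : Fin k → Eqn) (τ : Fin k → Ty) : Fin k → F × F := fun i => (cor (e i) (τ i), 0)

/-- On a replaced block the first coordinate of the shifted projection is the value of the
variable. -/
theorem value_eq (e : Fin k → Eqn) (τ : Fin k → Ty) (t : Fin k → F × F) (i : Fin k)
    (h : (τ i).isS) : (piL τ t i + vv e τ i).1 = (τ i).value (e i) (t i) := by
  rcases h with h | h | h
  · simp [vv, cor, h, pr, Ty.value]
  · simp [vv, cor, h, pr, Ty.value]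
  · simp [vv, cor, h, pr, Ty.value]

variable {W : Type} [AddCommGroup W] [Module F W]

/-- The linear map with given coefficients. -/
def hom (n : Fin k → W × W) : (Fin k → F × F) →ₗ[F] W where
  toFun t := ∑ i, ((t i).1 • (n i).1 + (t i).2 • (n i).2)
  map_add' s t := by
    simp only [Pi.add_apply, Prod.fst_add, Prod.snd_add, add_smul]
    rw [← Finset.sum_add_distrib]
    refine Finset.sum_congr rfl fun i _ => ?_
    abel
  map_smul' c t := by
    simp only [Pi.smul_apply, Prod.smul_fst, Prod.smul_snd, smul_assoc, RingHom.id_apply]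
    rw [Finset.smul_sum]
    refine Finset.sum_congr rfl fun i _ => ?_
    rw [smul_add]

theorem hom_apply (n : Fin k → W × W) (t : Fin k → F × F) :
    hom n t = ∑ i, ((t i).1 • (n i).1 + (t i).2 • (n i).2) := rfl

/-- Coefficients and linear maps. -/
def homE : (Fin k → W × W) ≃ ((Fin k → F × F) →ₗ[F] W) where
  toFun := hom
  invFun N := fun i => (N (Pi.single i (1, 0)), N (Pi.single i (0, 1)))
  left_inv n := by
    funext i
    ext
    · simp only [hom_apply]
      rw [Finset.sum_eq_single i]
      · simp
      · intro j _ hj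
        simp [Pi.single_eq_of_ne hj]
      · simp
    · simp only [hom_apply]
      rw [Finset.sum_eq_single i]
      · simp
      · intro j _ hj
        simp [Pi.single_eq_of_ne hj]
      · simp
  right_inv N := by
    refine LinearMap.ext fun t => ?_
    have h : t = ∑ i, ((t i).1 • (Pi.single i (1, 0) : Fin k → F × F) +
        (t i).2 • (Pi.single i (0, 1) : Fin k → F × F)) := by
      funext j
      rw [Finset.sum_apply, Finset.sum_eq_single j]
      · simp
      · intro i _ hi
        simp [Pi.single_eq_of_ne (Ne.symm hi)]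
      · simp
    rw [hom_apply]
    conv_rhs => rw [h]
    rw [map_sum]
    refine Finset.sum_congr rfl fun i _ => ?_
    rw [map_add, map_smul, map_smul]

@[simp] theorem homE_apply (n : Fin k → W × W) : homE n = hom n := rfl

/-- The lift is the composition with the projection. -/
theorem hom_lift (τ : Fin k → Ty) (n : Fin k → W × W) (t : Fin k → F × F) :
    hom (fun i => (τ i).lift (n i)) t = hom n (piL τ t) := by
  rw [hom_apply, hom_apply]
  refine Finset.sum_congr rfl fun i _ => ?_
  rw [piL_apply]
  cases τ i
  · rfl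
  · simp [Ty.lift, pr]
  · simp [Ty.lift, pr]
  · simp [Ty.lift, pr, add_smul]
  · simp [Ty.lift, pr]

theorem hom_vv (e : Fin k → Eqn) (τ : Fin k → Ty) (n : Fin k → W × W) :
    hom n (vv e τ) = ∑ i, cor (e i) (τ i) • (n i).1 := by
  rw [hom_apply]
  refine Finset.sum_congr rfl fun i _ => ?_
  simp [vv]

theorem hom_bump (n : Fin k → W × W) (c : W) (l : Fin k → F × F) :
    hom (bump n c l) = hom n + (hom l).smulRight c := by
  refine LinearMap.ext fun t => ?_
  rw [LinearMap.add_apply, LinearMap.smulRight_apply, hom_apply, hom_apply, hom_apply,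
    Finset.sum_smul, ← Finset.sum_add_distrib]
  refine Finset.sum_congr rfl fun i _ => ?_
  simp only [bump, smul_add, add_smul, smul_smul, smul_eq_mul]
  abel

variable [DecidableEq W]

/-- The tables of the two provers, with linear maps. -/
theorem tabU_lift_hom (f : (Fin k → Sym W) → W) (e : Fin k → Eqn) (τ : Fin k → Ty)
    (n : Fin k → W × W) : tabU f e (fun i => (τ i).lift (n i)) =
      tabV f (fun i => (τ i).vb (e i)) n + hom n (vv e τ) := by
  rw [tabU_lift, hom_vv]

end coords

end Vale.Agent.P325.H914
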